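import Vale.Agent.P339.R2.H375.Defs

/-!
P339: MODULE INNER: the value of the three tests for a centre table without decodable affine
functions, from the bounds for fixed `(j, w, θ0, θ1)`.
-/

namespace Vale.Agent.P339.R2.H376

open Finset Vale.Agent.Lib.PCP Vale.Agent.Lib.PCP.HA Vale.Agent.P339.H283 Vale.Agent.P339.H937
  Vale.Agent.P339.R2.H375

variable {l k nA : ℕ}

/-! ### Arithmetic -/

lemma arith_good {WC WA κ p δ E1 E2 vc van : ℝ} (hWC : 0 ≤ WC) (hWA : 0 ≤ WA) (hκ0 : 0 ≤ κ)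
    (hκ1 : κ ≤ 1) (hp0 : 0 ≤ p) (hp1 : p ≤ 1 + δ) (hδ0 : 0 ≤ δ)
    (hc : vc ≤ κ + (1 - κ) * p + E1) (ha : van ≤ 2 - p + E2) :
    WC * vc + WA * van ≤ max (WC * κ + 2 * WA) (WC + WA) + (WC * (E1 + δ) + WA * E2) := by
  obtain ⟨τ, hτ0, hτ1, hτp, hpτ⟩ : ∃ τ : ℝ, 0 ≤ τ ∧ τ ≤ 1 ∧ τ ≤ p ∧ p ≤ τ + δ := by
    rcases le_total p 1 with h | h
    · exact ⟨p, hp0, h, le_rfl, by linarith⟩
    · exact ⟨1, zero_le_one, le_rfl, h, hp1⟩
  have h1 : (1 - κ) * p ≤ (1 - κ) * τ + δ := by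
    have := mul_le_mul_of_nonneg_left hpτ (sub_nonneg.2 hκ1)
    nlinarith [mul_nonneg hκ0 hδ0]
  have h2 : WC * vc ≤ WC * (κ + (1 - κ) * τ + δ + E1) :=
    mul_le_mul_of_nonneg_left (by linarith) hWC
  have h3 : WA * van ≤ WA * (2 - τ + E2) := mul_le_mul_of_nonneg_left (by linarith) hWA
  have h4 : (1 - τ) * (WC * κ + 2 * WA) + τ * (WC + WA) ≤
      max (WC * κ + 2 * WA) (WC + WA) := by
    have a1 := mul_le_mul_of_nonneg_left (le_max_left (WC * κ + 2 * WA) (WC + WA))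
      (sub_nonneg.2 hτ1)
    have a2 := mul_le_mul_of_nonneg_left (le_max_right (WC * κ + 2 * WA) (WC + WA)) hτ0
    nlinarith
  nlinarith

lemma arith_bad {WC WA κ δ E1 E2 vc van e : ℝ} (hWC : 0 ≤ WC) (hWA : 0 ≤ WA)
    (hδ0 : 0 ≤ δ) (hE1 : 0 ≤ E1) (hE2 : 0 ≤ E2) (hc : vc ≤ 1) (ha : van ≤ 2) (he : 1 ≤ e) :
    WC * vc + WA * van ≤ max (WC * κ + 2 * WA) (WC + WA) + (WC * (E1 + δ) + WA * E2) +
      WA * e := by
  have h1 := mul_le_mul_of_nonneg_left hc hWC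
  have h2 := mul_le_mul_of_nonneg_left ha hWA
  have h3 := mul_le_mul_of_nonneg_left he hWA
  have h4 : 0 ≤ WC * (E1 + δ) := mul_nonneg hWC (add_nonneg hE1 hδ0)
  have h5 : 0 ≤ WA * E2 := mul_nonneg hWA hE2
  have h6 := le_max_right (WC * κ + 2 * WA) (WC + WA)
  linarith

/-! ### The exceptional vectors -/

/-- The number of reasons for which `(j, w, θ0, θ1)` is exceptional. -/
noncomputable def excG (HG : Finset ((Fin k × Fin nA → ZMod 2) × K l)) (j : Fin k)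
    (w : Fin nA → ZMod 2) (θ0 θ1 : K l) : ℝ :=
  ∑ h ∈ HG, ind (Bad1 h.1 j w) + (ind (θ0 = θ1) + ∑ h ∈ HG, ∑ h' ∈ HG,
    (ind (h.2 + h'.2 = θ0) + ind (h.2 + h'.2 = θ1) + ind (h.2 + h'.2 = θ0 + θ1)))

lemma tri_nonneg (z θ0 θ1 : K l) : 0 ≤ ind (z = θ0) + ind (z = θ1) + ind (z = θ0 + θ1) :=
  add_nonneg (add_nonneg (ind_nonneg _) (ind_nonneg _)) (ind_nonneg _)

lemma one_le_tri {z θ0 θ1 : K l} (h : z = θ0 ∨ z = θ1 ∨ z = θ0 + θ1) :
    1 ≤ ind (z = θ0) + ind (z = θ1) + ind (z = θ0 + θ1) := by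
  have n1 := ind_nonneg (z = θ0)
  have n2 := ind_nonneg (z = θ1)
  have n3 := ind_nonneg (z = θ0 + θ1)
  rcases h with h | h | h
  · have := ind_true h
    linarith
  · have := ind_true h
    linarith
  · have := ind_true h
    linarith

lemma excG_nonneg (HG : Finset ((Fin k × Fin nA → ZMod 2) × K l)) (j : Fin k)
    (w : Fin nA → ZMod 2) (θ0 θ1 : K l) : 0 ≤ excG HG j w θ0 θ1 :=
  add_nonneg (Finset.sum_nonneg fun _ _ => ind_nonneg _) (add_nonneg (ind_nonneg _)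
    (Finset.sum_nonneg fun _ _ => Finset.sum_nonneg fun _ _ => tri_nonneg _ _ _))

/-- Either nothing is exceptional, or the number of reasons is at least one. -/
lemma excG_cases (HG : Finset ((Fin k × Fin nA → ZMod 2) × K l)) (j : Fin k)
    (w : Fin nA → ZMod 2) (θ0 θ1 : K l) :
    1 ≤ excG HG j w θ0 θ1 ∨ ((∀ h ∈ HG, ¬ Bad1 h.1 j w) ∧ θ0 ≠ θ1 ∧
      ∀ h ∈ HG, ∀ h' ∈ HG, h.1 = h'.1 →
        h.2 + h'.2 ≠ θ0 ∧ h.2 + h'.2 ≠ θ1 ∧ h.2 + h'.2 ≠ θ0 + θ1) := by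
  have s1 : 0 ≤ ∑ h ∈ HG, ind (Bad1 h.1 j w) := Finset.sum_nonneg fun _ _ => ind_nonneg _
  have s2 : 0 ≤ ∑ h ∈ HG, ∑ h' ∈ HG,
      (ind (h.2 + h'.2 = θ0) + ind (h.2 + h'.2 = θ1) + ind (h.2 + h'.2 = θ0 + θ1)) :=
    Finset.sum_nonneg fun _ _ => Finset.sum_nonneg fun _ _ => tri_nonneg _ _ _
  have s3 := ind_nonneg (θ0 = θ1)
  by_cases hb : ∀ h ∈ HG, ¬ Bad1 h.1 j w
  swap
  · push Not at hb
    obtain ⟨h, hh, hbh⟩ := hb
    left
    have e1 := Finset.single_le_sum (f := fun h : (Fin k × Fin nA → ZMod 2) × K l =>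
      ind (Bad1 h.1 j w)) (fun h _ => ind_nonneg (Bad1 h.1 j w)) hh
    have e2 := ind_true hbh
    unfold excG
    linarith
  by_cases hθ : θ0 = θ1
  · left
    have e2 := ind_true hθ
    unfold excG
    linarith
  by_cases hg : ∀ h ∈ HG, ∀ h' ∈ HG, h.1 = h'.1 →
      h.2 + h'.2 ≠ θ0 ∧ h.2 + h'.2 ≠ θ1 ∧ h.2 + h'.2 ≠ θ0 + θ1
  · exact Or.inr ⟨hb, hθ, hg⟩
  · left
    push Not at hg
    obtain ⟨h, hh, h', hh', _, h3⟩ := hg
    have h4 : h.2 + h'.2 = θ0 ∨ h.2 + h'.2 = θ1 ∨ h.2 + h'.2 = θ0 + θ1 := by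
      by_cases a : h.2 + h'.2 = θ0
      · exact Or.inl a
      by_cases b : h.2 + h'.2 = θ1
      · exact Or.inr (Or.inl b)
      exact Or.inr (Or.inr (h3 a b))
    have e1 := Finset.single_le_sum (f := fun h : (Fin k × Fin nA → ZMod 2) × K l =>
      ∑ h' ∈ HG, (ind (h.2 + h'.2 = θ0) + ind (h.2 + h'.2 = θ1) + ind (h.2 + h'.2 = θ0 + θ1)))
      (fun h _ => Finset.sum_nonneg fun _ _ => tri_nonneg _ _ _) hh
    have e2 := Finset.single_le_sum (f := fun h' : (Fin k × Fin nA → ZMod 2) × K l =>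
      (ind (h.2 + h'.2 = θ0) + ind (h.2 + h'.2 = θ1) + ind (h.2 + h'.2 = θ0 + θ1)))
      (fun h' _ => tri_nonneg _ _ _) hh'
    have e3 := one_le_tri h4
    unfold excG
    linarith

lemma avg_tri_le (z : K l) : (avg fun θ0 : K l => avg fun θ1 : K l =>
    (ind (z = nz θ0) + ind (z = nz θ1) + ind (z = nz θ0 + nz θ1))) ≤ 6 / 2 ^ l := by
  have e1 : (avg fun θ0 : K l => avg fun θ1 : K l => ind (z = nz θ0)) ≤ 2 / 2 ^ l := by
    have := avg_nz z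
    refine le_trans (avg_mono fun θ0 => ?_) this
    rw [avg_const]
  have e2 : (avg fun θ0 : K l => avg fun θ1 : K l => ind (z = nz θ1)) ≤ 2 / 2 ^ l :=
    avg_le_of_le (by positivity) fun θ0 => avg_nz z
  have e3 : (avg fun θ0 : K l => avg fun θ1 : K l => ind (z = nz θ0 + nz θ1)) ≤ 2 / 2 ^ l := by
    refine avg_le_of_le (by positivity) fun θ0 => ?_
    refine le_trans (avg_mono fun θ1 => ind_mono fun h => ?_) (avg_nz (z + nz θ0))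
    rw [h]
    have : nz θ0 + nz θ1 + nz θ0 = nz θ1 + (nz θ0 + nz θ0) := by abel
    rw [this, K_add_self, add_zero]
  simp only [avg_add]
  have h6 : (6 : ℝ) / 2 ^ l = 2 / 2 ^ l + 2 / 2 ^ l + 2 / 2 ^ l := by ring
  rw [h6]
  linarith

/-- The average of the number of reasons. -/
lemma avg_excG_le [NeZero k] (HG : Finset ((Fin k × Fin nA → ZMod 2) × K l)) {c1 : ℝ} {K0 : ℕ}
    (hH : ∀ h ∈ HG,
      ((univ.filter fun j : Fin k => (sup fun a => h.1 (j, a)).card ≤ K0).card : ℝ) ≤ c1 * k) :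
    (avg fun j : Fin k => avg fun w : Fin nA → ZMod 2 => avg fun θ0 : K l => avg fun θ1 : K l =>
      excG HG j w (nz θ0) (nz θ1)) ≤
      HG.card * (c1 + 1 / 2 ^ K0) + (2 + 6 * (HG.card : ℝ) ^ 2) / 2 ^ l := by
  have hk : (0 : ℝ) < k := by exact_mod_cast Nat.pos_of_ne_zero (NeZero.ne k)
  have h1 : ∀ (j : Fin k) (w : Fin nA → ZMod 2), (avg fun θ0 : K l => avg fun θ1 : K l =>
      excG HG j w (nz θ0) (nz θ1)) ≤
      ∑ h ∈ HG, ind (Bad1 h.1 j w) + (2 + 6 * (HG.card : ℝ) ^ 2) / 2 ^ l := by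
    intro j w
    unfold excG
    simp only [avg_add, avg_const]
    have e1 : (avg fun θ0 : K l => avg fun θ1 : K l => ind (nz θ0 = nz θ1)) ≤ 2 / 2 ^ l :=
      avg_le_of_le (by positivity) fun θ0 => avg_nz (nz θ0)
    have e2 : (avg fun θ0 : K l => avg fun θ1 : K l => ∑ h ∈ HG, ∑ h' ∈ HG,
        (ind (h.2 + h'.2 = nz θ0) + ind (h.2 + h'.2 = nz θ1) +
          ind (h.2 + h'.2 = nz θ0 + nz θ1))) ≤ 6 * (HG.card : ℝ) ^ 2 / 2 ^ l := by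
      simp only [avg_sum]
      have e3 : ∀ h ∈ HG, ∀ h' ∈ HG, (avg fun θ0 : K l => avg fun θ1 : K l =>
          (ind (h.2 + h'.2 = nz θ0) + ind (h.2 + h'.2 = nz θ1) +
            ind (h.2 + h'.2 = nz θ0 + nz θ1))) ≤ 6 / 2 ^ l := fun h _ h' _ => avg_tri_le _
      refine (Finset.sum_le_sum fun h hh => Finset.sum_le_sum fun h' hh' =>
        e3 h hh h' hh').trans (le_of_eq ?_)
      simp only [Finset.sum_const, nsmul_eq_mul]
      ring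
    have e4 : (2 + 6 * (HG.card : ℝ) ^ 2) / 2 ^ l = 2 / 2 ^ l +
        6 * (HG.card : ℝ) ^ 2 / 2 ^ l := by ring
    rw [e4]
    linarith
  refine (avg_mono fun j => avg_mono fun w => h1 j w).trans ?_
  have h3 : (avg fun j : Fin k => avg fun w : Fin nA → ZMod 2 =>
      ∑ h ∈ HG, ind (Bad1 h.1 j w)) ≤ HG.card * (c1 + 1 / 2 ^ K0) := by
    simp only [avg_sum]
    have e1 : ∀ h ∈ HG, (avg fun j : Fin k => avg fun w : Fin nA → ZMod 2 =>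
        ind (Bad1 h.1 j w)) ≤ c1 + 1 / 2 ^ K0 := by
      intro h hh
      refine (avg_mono fun j => avg_Bad1_le h.1 j K0).trans ?_
      rw [avg_add, avg_const]
      refine add_le_add ?_ le_rfl
      have e2 : (avg fun j : Fin k => ind ((sup fun a => h.1 (j, a)).card ≤ K0)) =
          ((univ.filter fun j : Fin k => (sup fun a => h.1 (j, a)).card ≤ K0).card : ℝ) / k := by
        unfold avg ind
        rw [Finset.sum_boole, Fintype.card_fin]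
      rw [e2, div_le_iff₀ hk]
      exact hH h hh
    refine (Finset.sum_le_sum e1).trans (le_of_eq ?_)
    rw [Finset.sum_const, nsmul_eq_mul]
  simp only [avg_add, avg_const]
  linarith

/-! ### The masses -/

lemma mc_nonneg (R : (Fin k × Fin nA → K l) → K l × ZMod 2) (j : Fin k) (w : Fin nA → ZMod 2)
    (θ0 θ1 : K l) (β : ZMod 2) (h : (Fin k × Fin nA → ZMod 2) × K l) :
    0 ≤ mc R j w θ0 θ1 β h := avg_nonneg fun _ => ind_nonneg _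

lemma Pm1_nonneg (R : (Fin k × Fin nA → K l) → K l × ZMod 2) (j : Fin k) (w : Fin nA → ZMod 2)
    (θ0 θ1 : K l) (H : ZMod 2 → Finset ((Fin k × Fin nA → ZMod 2) × K l)) :
    0 ≤ Pm1 R j w θ0 θ1 H :=
  Finset.sum_nonneg fun _ _ => Finset.sum_nonneg fun _ _ => mc_nonneg _ _ _ _ _ _ _

lemma Qm1_nonneg (R : (Fin k × Fin nA → K l) → K l × ZMod 2) (j : Fin k) (w : Fin nA → ZMod 2)
    (θ0 θ1 : K l) (H : ZMod 2 → Finset ((Fin k × Fin nA → ZMod 2) × K l)) :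
    0 ≤ Qm1 R j w θ0 θ1 H :=
  Finset.sum_nonneg fun _ _ => Finset.sum_nonneg fun _ _ => mc_nonneg _ _ _ _ _ _ _

lemma rs_sum_nonneg (R : (Fin k × Fin nA → K l) → K l × ZMod 2) (j : Fin k)
    (w : Fin nA → ZMod 2) (θ0 θ1 : K l)
    (H : ZMod 2 → Finset ((Fin k × Fin nA → ZMod 2) × K l)) :
    0 ≤ ∑ β, avg (rs R j w θ0 θ1 (H β) β) :=
  Finset.sum_nonneg fun _ _ => avg_nonneg fun _ => ind_nonneg _

lemma vCN_le_one (R : (Fin k × Fin nA → K l) → K l × ZMod 2) (θ0 θ1 : K l)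
    (L : (Fin k × Fin nA → K l) → (Fin k × Fin nA → ZMod 2) → (K l × ZMod 2) × ZMod 2) :
    vCN R θ0 θ1 L ≤ 1 :=
  avg_le_of_le zero_le_one fun _ => avg_le_of_le zero_le_one fun _ =>
    avg_le_of_le zero_le_one fun _ => ind_le_one _

lemma vA_le_one (G : (Fin k × Fin nA → K l) → K l) (j : Fin k) (w : Fin nA → ZMod 2)
    (L : (Fin k × Fin nA → K l) → K l × ZMod 2) : vA G j w L ≤ 1 :=
  avg_le_of_le zero_le_one fun _ => avg_le_of_le zero_le_one fun _ => ind_le_one _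

lemma vN_le_one (L R : (Fin k × Fin nA → K l) → K l × ZMod 2) (θ0 θ1 : K l) :
    vN L R θ0 θ1 ≤ 1 :=
  avg_le_of_le zero_le_one fun _ => ind_le_one _

/-! ### The hypotheses -/

/-- The lists exist. -/
def LstHyp (l k nA : ℕ) : Prop :=
  ∀ (R : (Fin k × Fin nA → K l) → K l × ZMod 2) (j : Fin k) (w : Fin nA → ZMod 2)
    (θ0 θ1 : K l) (c : ℝ), 0 < c →
    ∃ H : ZMod 2 → Finset ((Fin k × Fin nA → ZMod 2) × K l), IsL R j w θ0 θ1 H c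

/-- The total mass. -/
def MassHyp (l k nA : ℕ) : Prop :=
  ∀ (R : (Fin k × Fin nA → K l) → K l × ZMod 2) (j : Fin k) (w : Fin nA → ZMod 2)
    (θ0 θ1 : K l) (H : ZMod 2 → Finset ((Fin k × Fin nA → ZMod 2) × K l)) (c : ℝ), 0 < c →
    IsL R j w θ0 θ1 H c →
    (∑ β, avg (rs R j w θ0 θ1 (H β) β)) + Pm1 R j w θ0 θ1 H + Qm1 R j w θ0 θ1 H ≤
      1 + 8 * (1 / c) ^ 2 / 2 ^ l

/-- The bound for the linear test on the tables of the second kind. -/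
def CNHyp (l k nA : ℕ) : Prop :=
  ∀ (R : (Fin k × Fin nA → K l) → K l × ZMod 2) (j : Fin k) (w : Fin nA → ZMod 2)
    (θ0 θ1 : K l), θ0 ≠ 0 → θ1 ≠ 0 → θ0 ≠ θ1 → (∀ u M, R (M + dis j w u θ0 θ1) = R M) →
    ∀ (H : ZMod 2 → Finset ((Fin k × Fin nA → ZMod 2) × K l)) (c ρ δ : ℝ), 0 < c →
    1 / 2 ^ l ≤ c → IsL R j w θ0 θ1 H c → 0 ≤ ρ → c ^ 2 + 14 / 2 ^ l ≤ ρ ^ 4 →
    8 * (1 / c) ^ 2 / 2 ^ l ≤ δ → δ ≤ 1 →
    ∀ L : (Fin k × Fin nA → K l) → (Fin k × Fin nA → ZMod 2) → (K l × ZMod 2) × ZMod 2,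
    vCN R θ0 θ1 L ≤ Real.sqrt (1 / 2) +
      (1 - Real.sqrt (1 / 2)) * (Pm1 R j w θ0 θ1 H + 1 / 2 * Qm1 R j w θ0 θ1 H) +
      (Real.sqrt (8 / 2 ^ l + 2 * ρ + 4 * δ) + 4 * (1 / c) / 2 ^ l)

/-- The bound for the two local tests. -/
def ANHyp (l k nA : ℕ) : Prop :=
  ∀ (R : (Fin k × Fin nA → K l) → K l × ZMod 2) (j : Fin k) (w : Fin nA → ZMod 2)
    (θ0 θ1 : K l), θ0 ≠ 0 → θ1 ≠ 0 → (∀ u M, R (M + dis j w u θ0 θ1) = R M) →
    ∀ (H : ZMod 2 → Finset ((Fin k × Fin nA → ZMod 2) × K l)) (c d : ℝ), 0 < c →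
    IsL R j w θ0 θ1 H c →
    ∀ (G : (Fin k × Fin nA → K l) → K l) (HG : Finset ((Fin k × Fin nA → ZMod 2) × K l)),
    0 < d → (HG.card : ℝ) * d ≤ 1 → (∀ t g, agr (rest G HG) G t g ≤ d) →
    (∀ h ∈ HG, ¬ Bad1 h.1 j w) →
    (θ0 ≠ θ1 ∧ ∀ h ∈ HG, ∀ h' ∈ HG, h.1 = h'.1 →
      h.2 + h'.2 ≠ θ0 ∧ h.2 + h'.2 ≠ θ1 ∧ h.2 + h'.2 ≠ θ0 + θ1) →
    ∀ L : (Fin k × Fin nA → K l) → K l × ZMod 2,
    vA G j w L + vN L R θ0 θ1 ≤
      2 - (Pm1 R j w θ0 θ1 H + 1 / 2 * Qm1 R j w θ0 θ1 H) +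
      (8 * (1 / c) ^ 2 / 2 ^ l + 4 * (1 / c) * (d + 1 / d / 2 ^ l + 1 / 2 ^ l))

/-! ### The bound for fixed vectors -/

lemma point_le (hl : 0 < l) (hLst : LstHyp l k nA) (hMass : MassHyp l k nA)
    (hCN : CNHyp l k nA) (hAN : ANHyp l k nA)
    (G : (Fin k × Fin nA → K l) → K l) {HG : Finset ((Fin k × Fin nA → ZMod 2) × K l)}
    (R : (Fin k × Fin nA → K l) → K l × ZMod 2) (j : Fin k) (w : Fin nA → ZMod 2) (θ0 θ1 : K l)
    (hR : ∀ u M, R (M + dis j w u (nz θ0) (nz θ1)) = R M)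
    (L : (Fin k × Fin nA → K l) → K l × ZMod 2)
    (LC : (Fin k × Fin nA → K l) → (Fin k × Fin nA → ZMod 2) → (K l × ZMod 2) × ZMod 2)
    {c d ρ δ WC WA : ℝ} (hc : 0 < c) (hcl : 1 / 2 ^ l ≤ c) (hd : 0 < d)
    (hρ0 : 0 ≤ ρ) (hρ : c ^ 2 + 14 / 2 ^ l ≤ ρ ^ 4)
    (hδ : 8 * (1 / c) ^ 2 / 2 ^ l ≤ δ) (hδ1 : δ ≤ 1) (hWC : 0 ≤ WC) (hWA : 0 ≤ WA)
    (hcard : (HG.card : ℝ) * d ≤ 1) (hagr : ∀ t g, agr (rest G HG) G t g ≤ d) :
    WC * vCN R (nz θ0) (nz θ1) LC + WA * (vA G j w L + vN L R (nz θ0) (nz θ1)) ≤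
      max (WC * Real.sqrt (1 / 2) + 2 * WA) (WC + WA) +
        (WC * (Real.sqrt (8 / 2 ^ l + 2 * ρ + 4 * δ) + 4 * (1 / c) / 2 ^ l + δ) +
        WA * (8 * (1 / c) ^ 2 / 2 ^ l + 4 * (1 / c) * (d + 1 / d / 2 ^ l + 1 / 2 ^ l))) +
      WA * excG HG j w (nz θ0) (nz θ1) := by
  have hpow : (0 : ℝ) < 2 ^ l := by positivity
  have hc' : 0 < 1 / c := by positivity
  have hd' : 0 < 1 / d := by positivity
  have hδ0 : 0 ≤ δ := le_trans (by positivity) hδ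
  have hκ0 : 0 ≤ Real.sqrt (1 / 2) := Real.sqrt_nonneg _
  have hκ1 : Real.sqrt (1 / 2) ≤ 1 := by
    rw [Real.sqrt_le_one]
    norm_num
  rcases excG_cases HG j w (nz θ0) (nz θ1) with he | ⟨hb, hne, hg⟩
  · refine arith_bad hWC hWA hδ0 ?_ ?_ (vCN_le_one _ _ _ _) ?_ he
    · positivity
    · positivity
    · linarith [vA_le_one G j w L, vN_le_one L R (nz θ0) (nz θ1)]
  · obtain ⟨H, hL⟩ := hLst R j w (nz θ0) (nz θ1) c hc
    have h1 := hCN R j w (nz θ0) (nz θ1) (nz_ne hl θ0) (nz_ne hl θ1) hne hR H c ρ δ hc hcl hL hρ0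
      hρ hδ hδ1 LC
    have h2 := hAN R j w (nz θ0) (nz θ1) (nz_ne hl θ0) (nz_ne hl θ1) hR H c d hc hL G HG hd hcard
      hagr hb ⟨hne, hg⟩ L
    have h3 := hMass R j w (nz θ0) (nz θ1) H c hc hL
    have hP := Pm1_nonneg R j w (nz θ0) (nz θ1) H
    have hQ := Qm1_nonneg R j w (nz θ0) (nz θ1) H
    have hrs := rs_sum_nonneg R j w (nz θ0) (nz θ1) H
    have h4 := arith_good hWC hWA hκ0 hκ1
      (p := Pm1 R j w (nz θ0) (nz θ1) H + 1 / 2 * Qm1 R j w (nz θ0) (nz θ1) H)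
      (by linarith) (by linarith) hδ0 h1 h2
    have h5 := mul_nonneg hWA (excG_nonneg HG j w (nz θ0) (nz θ1))
    linarith

/-- **The value of the tests for a centre table without decodable affine functions**, from the
bounds for fixed vectors. -/
theorem inner2_of [NeZero k] (hl : 0 < l) (hLst : LstHyp l k nA) (hMass : MassHyp l k nA)
    (hCN : CNHyp l k nA) (hAN : ANHyp l k nA) (G : (Fin k × Fin nA → K l) → K l)
    (l1 : Fin k → (Fin nA → ZMod 2) → (Fin k × Fin nA → K l) → K l × ZMod 2)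
    (r1 : Fin k → (Fin nA → ZMod 2) → K l → K l → (Fin k × Fin nA → K l) → K l × ZMod 2)
    (hr : ∀ j w θ0 θ1 u M, r1 j w θ0 θ1 (M + dis j w u (nz θ0) (nz θ1)) = r1 j w θ0 θ1 M)
    (lC : Fin k → (Fin nA → ZMod 2) → K l → K l → (Fin k × Fin nA → K l) →
      (Fin k × Fin nA → ZMod 2) → (K l × ZMod 2) × ZMod 2)
    {c d c1 ρ δ WC WA : ℝ} {K0 : ℕ} (hc : 0 < c) (hcl : 1 / 2 ^ l ≤ c) (hd : 0 < d)
    (hc1 : 0 ≤ c1) (hρ0 : 0 ≤ ρ) (hρ : c ^ 2 + 14 / 2 ^ l ≤ ρ ^ 4)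
    (hδ : 8 * (1 / c) ^ 2 / 2 ^ l ≤ δ) (hδ1 : δ ≤ 1) (hWC : 0 ≤ WC) (hWA : 0 ≤ WA)
    (hG : ∀ h : (Fin k × Fin nA → ZMod 2) × K l, d ≤ mu G h →
      ((univ.filter fun j : Fin k => (sup fun a => h.1 (j, a)).card ≤ K0).card : ℝ) ≤ c1 * k) :
    WC * valCN r1 lC + WA * (valA G l1 + valN l1 r1) ≤
      max (WC * Real.sqrt (1 / 2) + 2 * WA) (WC + WA) +
        (WC * (Real.sqrt (8 / 2 ^ l + 2 * ρ + 4 * δ) + 4 * (1 / c) / 2 ^ l + δ) +
        WA * (8 * (1 / c) ^ 2 / 2 ^ l + 4 * (1 / c) * (d + 1 / d / 2 ^ l + 1 / 2 ^ l) +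
          1 / d * (c1 + 1 / 2 ^ K0) + (2 + 6 * (1 / d) ^ 2) / 2 ^ l)) := by
  obtain ⟨HG, hH1, hH2, hH3⟩ := exists_list G hd
  have hpow : (0 : ℝ) < 2 ^ l := by positivity
  have hN : (HG.card : ℝ) ≤ 1 / d := by rwa [le_div_iff₀ hd]
  have hN0 : (0 : ℝ) ≤ HG.card := Nat.cast_nonneg _
  have hexc := avg_excG_le HG (c1 := c1) (K0 := K0) fun h hh => hG h (hH2 h hh)
  -- the sum as one average
  have hval : WC * valCN r1 lC + WA * (valA G l1 + valN l1 r1) =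
      avg fun j : Fin k => avg fun w : Fin nA → ZMod 2 => avg fun θ0 : K l => avg fun θ1 : K l =>
        (WC * vCN (r1 j w θ0 θ1) (nz θ0) (nz θ1) (lC j w θ0 θ1) +
          WA * (vA G j w (l1 j w) + vN (l1 j w) (r1 j w θ0 θ1) (nz θ0) (nz θ1))) := by
    have e1 : valA G l1 = avg fun j : Fin k => avg fun w : Fin nA → ZMod 2 => avg fun _ : K l =>
        avg fun _ : K l => vA G j w (l1 j w) := by
      unfold valA vA
      simp only [avg_const]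
    have e2 : valN l1 r1 = avg fun j : Fin k => avg fun w : Fin nA → ZMod 2 =>
        avg fun θ0 : K l => avg fun θ1 : K l =>
          vN (l1 j w) (r1 j w θ0 θ1) (nz θ0) (nz θ1) := rfl
    rw [e1, e2]
    unfold valCN
    simp only [avg_add, avg_const_mul]
  rw [hval]
  have h1 : ∀ (j : Fin k) (w : Fin nA → ZMod 2) (θ0 θ1 : K l),
      WC * vCN (r1 j w θ0 θ1) (nz θ0) (nz θ1) (lC j w θ0 θ1) +
        WA * (vA G j w (l1 j w) + vN (l1 j w) (r1 j w θ0 θ1) (nz θ0) (nz θ1)) ≤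
      max (WC * Real.sqrt (1 / 2) + 2 * WA) (WC + WA) +
        (WC * (Real.sqrt (8 / 2 ^ l + 2 * ρ + 4 * δ) + 4 * (1 / c) / 2 ^ l + δ) +
        WA * (8 * (1 / c) ^ 2 / 2 ^ l + 4 * (1 / c) * (d + 1 / d / 2 ^ l + 1 / 2 ^ l))) +
      WA * excG HG j w (nz θ0) (nz θ1) := fun j w θ0 θ1 =>
    point_le hl hLst hMass hCN hAN G (r1 j w θ0 θ1) j w θ0 θ1 (hr j w θ0 θ1) (l1 j w)
      (lC j w θ0 θ1) hc hcl hd hρ0 hρ hδ hδ1 hWC hWA hH1 hH3
  refine (avg_mono fun j => avg_mono fun w => avg_mono fun θ0 => avg_mono fun θ1 =>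
    h1 j w θ0 θ1).trans ?_
  simp only [avg_add, avg_const, avg_const_mul]
  have h2 : (avg fun j : Fin k => avg fun w : Fin nA → ZMod 2 => avg fun θ0 : K l =>
      avg fun θ1 : K l => excG HG j w (nz θ0) (nz θ1)) ≤
      1 / d * (c1 + 1 / 2 ^ K0) + (2 + 6 * (1 / d) ^ 2) / 2 ^ l := by
    refine hexc.trans (add_le_add (mul_le_mul_of_nonneg_right hN (by positivity)) ?_)
    refine div_le_div_of_nonneg_right ?_ hpow.le
    have := pow_le_pow_left₀ hN0 hN 2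
    linarith
  have h3 := mul_le_mul_of_nonneg_left h2 hWA
  nlinarith

end Vale.Agent.P339.R2.H376
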